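import Vale.Agent.P141.H718.DeepP

/-!
# P141, line (A): the pair sum over the stopped tree, with a potential

`Bd N g h k q` : some cell at or above `(k, q)` has value above `2 h`.  `R` : a potential which is
at most `1` on bad cells, `0` at the good cells of scale `0`, and at most `c` times the sum over
the two children at the other good cells, `2 c < 1`.

`pair_root` : the sum over all cells `q` below `(N, M)` of `R` times the mass of the alive cells
at distance at most `J` is at most a constant times the root mass.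
-/

namespace Vale.Agent.P141.H718

open Finset
open Vale.Agent.P141.PL (iv mem_iv card_iv ix ix_ix ix_zero)

noncomputable section

open scoped Classical

/-- some cell at or above `(k, q)` is tall -/
def Bd (N : ℕ) (g : ℕ → ℤ → ℝ) (h : ℝ) (k : ℕ) (q : ℤ) : Prop :=
  ∃ i, i ≤ N - k ∧ 2 * h < g (k + i) (q / 2 ^ i)

/-- the mass of the alive cells at distance at most `J` -/
def npr (al : ℕ → ℤ → Prop) (g : ℕ → ℤ → ℝ) (J k : ℕ) (q : ℤ) : ℝ :=
  ∑ p ∈ Icc (q - J) (q + J), if al k p then g k p else 0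

/-- tree sums by recursion -/
def TA (f : ℕ → ℤ → ℝ) : ℕ → ℤ → ℝ
  | 0, q => f 0 q
  | k + 1, q => 2 ^ (k + 1) * f (k + 1) q + (TA f k (2 * q) + TA f k (2 * q + 1))

theorem TA_eq (f : ℕ → ℤ → ℝ) (n : ℕ) (m : ℤ) :
    TA f n m = ∑ k ∈ range (n + 1), 2 ^ k * ∑ q ∈ iv (n - k) m, f k q := by
  induction n generalizing m with
  | zero =>
    rw [range_one, sum_singleton, iv_self 0 m, sum_singleton]
    simp [TA]
  | succ n ih =>
    rw [sum_range_succ, iv_self, sum_singleton, TA, ih, ih, ← sum_add_distrib, add_comm]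
    congr 1
    refine sum_congr rfl fun k hk => ?_
    rw [mem_range] at hk
    rw [show n + 1 - k = (n - k) + 1 by omega, iv_succ]
    ring

/-- the constant -/
def CR (J : ℕ) (c : ℝ) : ℝ := 2 * J * (2 * J + 1) + c * (2 * J + 1) / (1 - 2 * c)

theorem CR_nonneg (J : ℕ) {c : ℝ} (hc0 : 0 ≤ c) (hc : 2 * c < 1) : 0 ≤ CR J c := by
  unfold CR
  have h1 : 0 < 1 - 2 * c := by linarith
  positivity

variable {g R : ℕ → ℤ → ℝ} {al : ℕ → ℤ → Prop} {N : ℕ} {h c : ℝ}

theorem npr_nonneg (hg0 : ∀ k p, 0 ≤ g k p) (J k : ℕ) (q : ℤ) : 0 ≤ npr al g J k q := by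
  unfold npr
  refine sum_nonneg fun p _ => ?_
  split_ifs
  · exact hg0 _ _
  · exact le_rfl

theorem npr_le (hh : 0 ≤ h) (hal : ∀ k p, al k p → k ≤ N → ∀ i, i ≤ N - k →
    g (k + i) (p / 2 ^ i) ≤ h) (J : ℕ) {k : ℕ} (hk : k ≤ N) (q : ℤ) :
    npr al g J k q ≤ (2 * J + 1) * h := by
  unfold npr
  have h1 : ∀ p ∈ Icc (q - J) (q + J), (if al k p then g k p else 0) ≤ h := by
    intro p _
    split_ifs with hp
    · have := hal k p hp hk 0 (Nat.zero_le _)
      simpa using this
    · exact hh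
  refine (sum_le_card_nsmul _ _ _ h1).trans ?_
  rw [nsmul_eq_mul, Int.card_Icc]
  refine mul_le_mul_of_nonneg_right ?_ hh
  have h2 : (q + (J : ℤ) + 1 - (q - (J : ℤ))).toNat = 2 * J + 1 := by omega
  rw [h2]
  push_cast
  exact le_rfl

/-- below a tall cell only the boundary is charged -/
theorem npr_zero (hh : 0 ≤ h) (hal : ∀ k p, al k p → k ≤ N → ∀ i, i ≤ N - k →
    g (k + i) (p / 2 ^ i) ≤ h) {J k n : ℕ} (hk : k + n ≤ N) {t q : ℤ}
    (ht : 2 * h < g (k + n) t) (h1 : 2 ^ n * t + J ≤ q) (h2 : q < 2 ^ n * t + 2 ^ n - J) :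
    npr al g J k q = 0 := by
  unfold npr
  refine sum_eq_zero fun p hp => if_neg fun hc => ?_
  rw [mem_Icc] at hp
  have hp1 : p ∈ iv n t := by
    unfold iv
    rw [mem_Ico]
    constructor
    · linarith [hp.1]
    · linarith [hp.2]
  rw [mem_iv] at hp1
  have h3 := hal k p hc (by omega) n (by omega)
  have h4 : p / 2 ^ n = t := hp1
  rw [h4] at h3
  linarith

/-- the charge below a tall cell -/
theorem TA_tall (hg0 : ∀ k p, 0 ≤ g k p) (hh : 0 ≤ h)
    (hR1 : ∀ k q, k ≤ N → Bd N g h k q → R k q ≤ 1)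
    (hal : ∀ k p, al k p → k ≤ N → ∀ i, i ≤ N - k → g (k + i) (p / 2 ^ i) ≤ h) (J : ℕ) {k : ℕ}
    (hk : k ≤ N) {t : ℤ} (ht : 2 * h < g k t) :
    TA (fun k q => R k q * npr al g J k q) k t ≤ 2 * J * (2 * J + 1) * (2 ^ k * g k t) := by
  rw [TA_eq]
  have h0 : (0 : ℝ) ≤ (2 * J + 1) * h := by positivity
  have h1 : ∀ k' ∈ range (k + 1), 2 ^ k' * ∑ q ∈ iv (k - k') t, R k' q * npr al g J k' q ≤
      2 ^ k' * (2 * J * ((2 * J + 1) * h)) := by
    intro k' hk'
    rw [mem_range] at hk'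
    have e1 : k' + (k - k') = k := by omega
    refine mul_le_mul_of_nonneg_left ?_ (by positivity)
    have h2 : ∀ q ∈ iv (k - k') t, R k' q * npr al g J k' q ≤
        if ¬ (2 ^ (k - k') * t + (J : ℤ) ≤ q ∧ q < 2 ^ (k - k') * t + 2 ^ (k - k') - J) then
          (2 * J + 1) * h else 0 := by
      intro q hq
      rw [mem_iv] at hq
      by_cases hb : 2 ^ (k - k') * t + (J : ℤ) ≤ q ∧ q < 2 ^ (k - k') * t + 2 ^ (k - k') - J
      · rw [if_neg (not_not.2 hb), npr_zero (n := k - k') hh hal (by omega)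
          (by rw [e1]; exact ht) hb.1 hb.2, mul_zero]
      · rw [if_pos hb]
        have h3 : R k' q ≤ 1 := by
          refine hR1 k' q (by omega) ⟨k - k', by omega, ?_⟩
          have h4 : q / 2 ^ (k - k') = t := hq
          rw [h4, e1]
          exact ht
        refine (mul_le_mul_of_nonneg_right h3 (npr_nonneg hg0 J k' q)).trans ?_
        rw [one_mul]
        exact npr_le hh hal J (by omega) q
    have h5 := sum_le_sum h2
    rw [← sum_filter, sum_const, nsmul_eq_mul] at h5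
    have h6 : (((iv (k - k') t).filter fun P => ¬ (2 ^ (k - k') * t + (J : ℤ) ≤ P ∧
        P < 2 ^ (k - k') * t + 2 ^ (k - k') - J)).card : ℝ) ≤ 2 * J := by
      exact_mod_cast bdry_card (k - k') t J
    exact h5.trans (mul_le_mul_of_nonneg_right h6 h0)
  refine (sum_le_sum h1).trans ?_
  rw [← sum_mul]
  have h7 : ∀ n : ℕ, ∑ i ∈ range n, (2 : ℝ) ^ i ≤ 2 ^ n := by
    intro n
    induction n with
    | zero => simp
    | succ n ih =>
      rw [sum_range_succ, pow_succ]
      linarith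
  have h8 : (0 : ℝ) ≤ 2 * J * ((2 * J + 1) * h) := by positivity
  refine (mul_le_mul_of_nonneg_right (h7 (k + 1)) h8).trans ?_
  have h9 : (0 : ℝ) ≤ 2 * J * (2 * J + 1) * 2 ^ k := by positivity
  have h10 := mul_le_mul_of_nonneg_left ht.le h9
  rw [pow_succ]
  linarith

/-- **The potential argument.** -/
theorem pot (hg0 : ∀ k p, 0 ≤ g k p)
    (hg : ∀ k p, k < N → 2 * g (k + 1) p = g k (2 * p) + g k (2 * p + 1)) (hh : 0 ≤ h)
    (hc0 : 0 ≤ c) (hc : 2 * c < 1) (hR0 : ∀ k q, 0 ≤ R k q)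
    (hR1 : ∀ k q, k ≤ N → Bd N g h k q → R k q ≤ 1) (hRz : ∀ q, ¬ Bd N g h 0 q → R 0 q ≤ 0)
    (hRs : ∀ k q, k < N → ¬ Bd N g h (k + 1) q →
      R (k + 1) q ≤ c * (R k (2 * q) + R k (2 * q + 1)))
    (hal : ∀ k p, al k p → k ≤ N → ∀ i, i ≤ N - k → g (k + i) (p / 2 ^ i) ≤ h) (J : ℕ) :
    ∀ k, k ≤ N → ∀ q, (∀ i, 1 ≤ i → i ≤ N - k → g (k + i) (q / 2 ^ i) ≤ 2 * h) →
      TA (fun k q => R k q * npr al g J k q) k q +
        2 * c / (1 - 2 * c) * (2 ^ k * R k q * ((2 * J + 1) * h)) ≤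
      CR J c * (2 ^ k * g k q) := by
  have hd : 0 < 1 - 2 * c := by linarith
  have h0 : (0 : ℝ) ≤ (2 * J + 1) * h := by positivity
  have hlam : (0 : ℝ) ≤ 2 * c / (1 - 2 * c) := by positivity
  -- the maximal tall cells
  have tallc : ∀ k, k ≤ N → ∀ q, 2 * h < g k q →
      TA (fun k q => R k q * npr al g J k q) k q +
        2 * c / (1 - 2 * c) * (2 ^ k * R k q * ((2 * J + 1) * h)) ≤
      CR J c * (2 ^ k * g k q) := by
    intro k hk q ht
    have h1 := TA_tall hg0 hh hR1 hal J hk ht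
    have h2 : R k q ≤ 1 := hR1 k q hk ⟨0, Nat.zero_le _, by simpa using ht⟩
    have h3 : (2 : ℝ) ^ k * R k q * ((2 * J + 1) * h) ≤ 2 ^ k * ((2 * J + 1) * h) := by
      refine mul_le_mul_of_nonneg_right ?_ h0
      have := mul_le_mul_of_nonneg_left h2 (by positivity : (0 : ℝ) ≤ 2 ^ k)
      linarith
    have h4 := mul_le_mul_of_nonneg_left h3 hlam
    have h5 : (0 : ℝ) ≤ c / (1 - 2 * c) * (2 ^ k * (2 * J + 1)) := by positivity
    have h6 := mul_le_mul_of_nonneg_left ht.le h5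
    have e1 : 2 * c / (1 - 2 * c) * (2 ^ k * ((2 * J + 1) * h)) =
        c / (1 - 2 * c) * (2 ^ k * (2 * J + 1)) * (2 * h) := by ring
    rw [e1] at h4
    have e2 : CR J c * (2 ^ k * g k q) = 2 * J * (2 * J + 1) * (2 ^ k * g k q) +
        c / (1 - 2 * c) * (2 ^ k * (2 * J + 1)) * g k q := by
      unfold CR
      ring
    rw [e2]
    linarith
  intro k
  induction k with
  | zero =>
    intro hk q hq
    by_cases ht : 2 * h < g 0 q
    · exact tallc 0 hk q ht
    · have hnb : ¬ Bd N g h 0 q := by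
        rintro ⟨i, hi, hi2⟩
        rcases Nat.eq_zero_or_pos i with h1 | h1
        · subst h1
          simp only [Nat.add_zero, pow_zero, Int.ediv_one] at hi2
          exact ht hi2
        · exact absurd hi2 (not_lt.2 (hq i h1 hi))
      have h2 : R 0 q = 0 := le_antisymm (hRz q hnb) (hR0 0 q)
      have h3 : TA (fun k q => R k q * npr al g J k q) 0 q = 0 := by
        simp [TA, h2]
      rw [h3, h2]
      have := mul_nonneg (CR_nonneg J hc0 hc) (mul_nonneg (by positivity : (0 : ℝ) ≤ 2 ^ 0)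
        (hg0 0 q))
      simpa using this
  | succ k ih =>
    intro hk q hq
    by_cases ht : 2 * h < g (k + 1) q
    · exact tallc (k + 1) hk q ht
    · have hnb : ¬ Bd N g h (k + 1) q := by
        rintro ⟨i, hi, hi2⟩
        rcases Nat.eq_zero_or_pos i with h1 | h1
        · subst h1
          simp only [Nat.add_zero, pow_zero, Int.ediv_one] at hi2
          exact ht hi2
        · exact absurd hi2 (not_lt.2 (hq i h1 hi))
      have hch : ∀ q', q' / 2 = q → ∀ i, 1 ≤ i → i ≤ N - k → g (k + i) (q' / 2 ^ i) ≤ 2 * h := by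
        intro q' hq' i hi hi2
        have e1 : q' / 2 ^ i = q / 2 ^ (i - 1) := by
          have e2 : (2 : ℤ) ^ i = 2 * 2 ^ (i - 1) := by
            rw [← pow_succ', Nat.sub_add_cancel hi]
          rw [e2, ← Int.ediv_ediv_of_nonneg (by norm_num : (0 : ℤ) ≤ 2), hq']
        rw [e1]
        have e3 : k + i = k + 1 + (i - 1) := by omega
        rw [e3]
        rcases Nat.eq_zero_or_pos (i - 1) with h1 | h1
        · rw [h1]
          simp only [Nat.add_zero, pow_zero, Int.ediv_one]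
          exact not_lt.1 ht
        · exact hq (i - 1) h1 (by omega)
      have i1 := ih (by omega) (2 * q) (hch _ (by omega))
      have i2 := ih (by omega) (2 * q + 1) (hch _ (by omega))
      have h1 := hRs k q (by omega) hnb
      have h2 := npr_le hh hal J hk q
      have h3 := hR0 (k + 1) q
      have h4 : R (k + 1) q * npr al g J (k + 1) q ≤ R (k + 1) q * ((2 * J + 1) * h) :=
        mul_le_mul_of_nonneg_left h2 h3
      have h5 := hg k q (by omega)
      have e1 : TA (fun k q => R k q * npr al g J k q) (k + 1) q =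
          2 ^ (k + 1) * (R (k + 1) q * npr al g J (k + 1) q) +
          (TA (fun k q => R k q * npr al g J k q) k (2 * q) +
            TA (fun k q => R k q * npr al g J k q) k (2 * q + 1)) := by
        rw [TA]
      have e2 : CR J c * (2 ^ (k + 1) * g (k + 1) q) =
          CR J c * (2 ^ k * g k (2 * q)) + CR J c * (2 ^ k * g k (2 * q + 1)) := by
        rw [pow_succ, mul_assoc (2 ^ k) 2, h5]
        ring
      rw [e1, e2]
      have h6 : (2 : ℝ) ^ (k + 1) * (R (k + 1) q * npr al g J (k + 1) q) ≤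
          2 ^ (k + 1) * (R (k + 1) q * ((2 * J + 1) * h)) :=
        mul_le_mul_of_nonneg_left h4 (by positivity)
      have h7 : (1 / (1 - 2 * c)) * (2 ^ (k + 1) * (R (k + 1) q * ((2 * J + 1) * h))) ≤
          (1 / (1 - 2 * c)) * (2 ^ (k + 1) * ((c * (R k (2 * q) + R k (2 * q + 1))) *
            ((2 * J + 1) * h))) := by
        refine mul_le_mul_of_nonneg_left ?_ (by positivity)
        refine mul_le_mul_of_nonneg_left ?_ (by positivity)
        exact mul_le_mul_of_nonneg_right h1 h0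
      have e3 : (1 / (1 - 2 * c)) * (2 ^ (k + 1) * (R (k + 1) q * ((2 * J + 1) * h))) =
          2 ^ (k + 1) * (R (k + 1) q * ((2 * J + 1) * h)) +
          2 * c / (1 - 2 * c) * (2 ^ (k + 1) * R (k + 1) q * ((2 * J + 1) * h)) := by
        field_simp
        ring
      have e4 : (1 / (1 - 2 * c)) * (2 ^ (k + 1) * ((c * (R k (2 * q) + R k (2 * q + 1))) *
            ((2 * J + 1) * h))) =
          2 * c / (1 - 2 * c) * (2 ^ k * R k (2 * q) * ((2 * J + 1) * h)) +
          2 * c / (1 - 2 * c) * (2 ^ k * R k (2 * q + 1) * ((2 * J + 1) * h)) := by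
        rw [pow_succ]
        ring
      rw [e3, e4] at h7
      linarith

/-- **The pair sum, one root of the near cells.** -/
theorem pair_root (hg0 : ∀ k p, 0 ≤ g k p)
    (hg : ∀ k p, k < N → 2 * g (k + 1) p = g k (2 * p) + g k (2 * p + 1)) (hh : 0 ≤ h)
    (hc0 : 0 ≤ c) (hc : 2 * c < 1) (hR0 : ∀ k q, 0 ≤ R k q)
    (hR1 : ∀ k q, k ≤ N → Bd N g h k q → R k q ≤ 1) (hRz : ∀ q, ¬ Bd N g h 0 q → R 0 q ≤ 0)
    (hRs : ∀ k q, k < N → ¬ Bd N g h (k + 1) q →
      R (k + 1) q ≤ c * (R k (2 * q) + R k (2 * q + 1)))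
    (hal : ∀ k p, al k p → k ≤ N → ∀ i, i ≤ N - k → g (k + i) (p / 2 ^ i) ≤ h) (J : ℕ) (M : ℤ) :
    ∑ k ∈ range (N + 1), 2 ^ k * ∑ q ∈ iv (N - k) M,
      R k q * ∑ p ∈ Icc (q - J) (q + J), (if al k p then g k p else 0) ≤
      CR J c * (2 ^ N * g N M) := by
  have h1 := pot hg0 hg hh hc0 hc hR0 hR1 hRz hRs hal J N le_rfl M (fun i hi hi2 => by omega)
  rw [TA_eq] at h1
  unfold npr at h1
  have hd : 0 < 1 - 2 * c := by linarith
  have h2 : (0 : ℝ) ≤ 2 * c / (1 - 2 * c) * (2 ^ N * R N M * ((2 * J + 1) * h)) := by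
    have := hR0 N M
    positivity
  linarith

end

end Vale.Agent.P141.H718
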