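import Vale.Agent.P141.PL.Defs

/-!
# P141, line (A): pairs of a cell of small height and a cell below a tall cell

`g k p ≥ 0` : a tree of masses, `2 g (k+1) p = g k (2p) + g k (2p+1)`; `Up N g H k p` : the cell
`(k, p)` and all cells above it up to the scale `N` have value at most `H` (closed upwards);
`Tp N g H k t` : the maximal cells with value above `H`.

* `tall_mass` : the maximal tall cells have mass at most the root mass;
* `deep_pairs` : the sum over the pairs of a cell `(i, q)` which is not `Up (2h)` and a cell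
  `(i + r, p)` at distance at most `J` of the ancestor of `q`, with `p` of height at most `h` and
  `Up (2h)`, is at most a constant times the root mass.
-/

namespace Vale.Agent.P141.H718

open Finset
open Vale.Agent.P141.PL (iv mem_iv card_iv ix ix_ix ix_zero)

noncomputable section

open scoped Classical

/-- the cell and all cells above it have value at most `H` -/
def Up (N : ℕ) (g : ℕ → ℤ → ℝ) (H : ℝ) (k : ℕ) (p : ℤ) : Prop :=
  ∀ j, k ≤ j → j ≤ N → g j (ix (j - k) p) ≤ H

/-- a maximal tall cell -/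
def Tp (N : ℕ) (g : ℕ → ℤ → ℝ) (H : ℝ) (k : ℕ) (t : ℤ) : Prop :=
  H < g k t ∧ ∀ j, k < j → j ≤ N → g j (ix (j - k) t) ≤ H

theorem Up.anc {N : ℕ} {g : ℕ → ℤ → ℝ} {H : ℝ} {k : ℕ} {p : ℤ} (h : Up N g H k p) {j : ℕ}
    (hj : k ≤ j) : Up N g H j (ix (j - k) p) := by
  intro l hl hN
  have e := h l (hj.trans hl) hN
  have e2 : ix (l - j) (ix (j - k) p) = ix (l - k) p := by
    rw [ix_ix]
    congr 1
    omega
  rw [e2]
  exact e

theorem not_up {N : ℕ} {g : ℕ → ℤ → ℝ} {H : ℝ} {k : ℕ} {p : ℤ} (h : ¬ Up N g H k p) :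
    ∃ j, k ≤ j ∧ j ≤ N ∧ Tp N g H j (ix (j - k) p) := by
  unfold Up at h
  simp only [not_forall, not_le] at h
  obtain ⟨j0, h1, h2, h3⟩ := h
  set S := (Icc k N).filter fun j => H < g j (ix (j - k) p) with hS
  have hne : S.Nonempty := ⟨j0, by
    rw [hS, mem_filter, mem_Icc]
    exact ⟨⟨h1, h2⟩, h3⟩⟩
  have hm := S.max'_mem hne
  set j := S.max' hne with hj
  rw [hS, mem_filter, mem_Icc] at hm
  refine ⟨j, hm.1.1, hm.1.2, hm.2, fun l hl hN => ?_⟩
  by_contra hc
  rw [not_le] at hc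
  have e2 : ix (l - j) (ix (j - k) p) = ix (l - k) p := by
    rw [ix_ix]
    congr 1
    omega
  rw [e2] at hc
  have hlS : l ∈ S := by
    rw [hS, mem_filter, mem_Icc]
    exact ⟨⟨by omega, hN⟩, hc⟩
  have := S.le_max' l hlS
  omega

/-- cells of a cell -/
theorem cells {k K : ℕ} (hk : k ≤ K) (R : ℤ) (f : ℤ → ℝ) :
    ∑ a ∈ iv (K - k) R, ∑ x ∈ iv k a, f x = ∑ x ∈ iv K R, f x := by
  have hmap : ∀ x ∈ iv K R, ix k x ∈ iv (K - k) R := by
    intro x hx
    rw [mem_iv] at hx ⊢
    rw [ix_ix, Nat.add_sub_cancel' hk]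
    exact hx
  rw [← sum_fiberwise_of_maps_to hmap]
  refine sum_congr rfl fun a ha => sum_congr ?_ fun _ _ => rfl
  ext x
  rw [mem_filter, mem_iv, mem_iv]
  constructor
  · intro h
    refine ⟨?_, h⟩
    rw [mem_iv] at ha
    rw [← ha, ← h, ix_ix, Nat.add_sub_cancel' hk]
  · exact fun h => h.2

theorem iv_succ (n : ℕ) (m : ℤ) (f : ℤ → ℝ) :
    ∑ x ∈ iv (n + 1) m, f x = ∑ x ∈ iv n (2 * m), f x + ∑ x ∈ iv n (2 * m + 1), f x := by
  have e : iv (n + 1) m = iv n (2 * m) ∪ iv n (2 * m + 1) := by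
    ext x
    unfold iv
    rw [mem_union, mem_Ico, mem_Ico, mem_Ico, pow_succ]
    constructor
    · intro h
      by_cases hx : x < 2 ^ n * (2 * m) + 2 ^ n
      · left
        constructor
        · nlinarith [h.1]
        · exact hx
      · right
        rw [not_lt] at hx
        constructor
        · nlinarith
        · nlinarith [h.2]
    · have h2 : (0 : ℤ) < 2 ^ n := by positivity
      rintro (h | h)
      · constructor
        · nlinarith [h.1]
        · nlinarith [h.2]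
      · constructor
        · nlinarith [h.1]
        · nlinarith [h.2]
  rw [e, sum_union]
  rw [disjoint_left]
  intro x h1 h2
  rw [mem_iv] at h1 h2
  omega

theorem iv_self (N : ℕ) (m : ℤ) : iv (N - N) m = {m} := by
  rw [Nat.sub_self]
  ext x
  rw [mem_iv, ix_zero, mem_singleton]

variable {g : ℕ → ℤ → ℝ}

/-- the part of the maximal tall cells -/
def TS (N : ℕ) (g : ℕ → ℤ → ℝ) (H : ℝ) (m0 : ℤ) : ℝ :=
  ∑ k ∈ range (N + 1), ∑ t ∈ iv (N - k) m0, if Tp N g H k t then 2 ^ k * g k t else 0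

/-- **The maximal tall cells are disjoint.** -/
theorem tall_mass (hg0 : ∀ k p, 0 ≤ g k p) {H : ℝ} (N : ℕ)
    (hg : ∀ k p, k < N → 2 * g (k + 1) p = g k (2 * p) + g k (2 * p + 1)) (m0 : ℤ) :
    TS N g H m0 ≤ 2 ^ N * g N m0 := by
  induction N generalizing m0 with
  | zero =>
    unfold TS
    rw [range_one, sum_singleton]
    rw [iv_self 0 m0, sum_singleton]
    split_ifs with h
    · exact le_rfl
    · simpa using hg0 0 m0
  | succ N ih =>
    by_cases hroot : H < g (N + 1) m0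
    · unfold TS
      rw [sum_range_succ]
      rw [iv_self, sum_singleton]
      have hz : ∑ k ∈ range (N + 1), ∑ t ∈ iv (N + 1 - k) m0,
          (if Tp (N + 1) g H k t then 2 ^ k * g k t else 0) = 0 := by
        refine sum_eq_zero fun k hk => sum_eq_zero fun t ht => ?_
        rw [mem_range] at hk
        rw [mem_iv] at ht
        refine if_neg fun hT => ?_
        have := hT.2 (N + 1) hk le_rfl
        rw [ht] at this
        linarith
      rw [hz, zero_add]
      split_ifs with h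
      · exact le_rfl
      · exact mul_nonneg (by positivity) (hg0 _ _)
    · rw [not_lt] at hroot
      have h1 := ih (fun k p hk => hg k p (by omega)) (2 * m0)
      have h2 := ih (fun k p hk => hg k p (by omega)) (2 * m0 + 1)
      have h3 := hg N m0 (by omega)
      have e : TS (N + 1) g H m0 = TS N g H (2 * m0) + TS N g H (2 * m0 + 1) := by
        unfold TS
        rw [sum_range_succ]
        have hn : ¬ Tp (N + 1) g H (N + 1) m0 := fun hT => by
          have := hT.1
          linarith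
        rw [iv_self, sum_singleton, if_neg hn, add_zero, ← sum_add_distrib]
        refine sum_congr rfl fun k hk => ?_
        rw [mem_range] at hk
        have e2 : N + 1 - k = (N - k) + 1 := by omega
        rw [e2, iv_succ]
        have key : ∀ c : ℤ, ix 1 c = m0 → ∀ t ∈ iv (N - k) c,
            (if Tp (N + 1) g H k t then 2 ^ k * g k t else (0 : ℝ)) =
              if Tp N g H k t then 2 ^ k * g k t else 0 := by
          intro c hc t ht
          rw [mem_iv] at ht
          have e3 : Tp (N + 1) g H k t ↔ Tp N g H k t := by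
            constructor
            · intro hT
              exact ⟨hT.1, fun j hj hN => hT.2 j hj (by omega)⟩
            · intro hT
              refine ⟨hT.1, fun j hj hN => ?_⟩
              rcases Nat.lt_or_ge N j with hj2 | hj2
              · have e4 : j = N + 1 := by omega
                rw [e4, e2, ← ix_ix, ht, hc]
                exact hroot
              · exact hT.2 j hj hj2
          simp only [e3]
        rw [sum_congr rfl (key (2 * m0) (by unfold ix; omega)),
          sum_congr rfl (key (2 * m0 + 1) (by unfold ix; omega))]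
      rw [e, pow_succ]
      have h4 : (2 : ℝ) ^ N * 2 * g (N + 1) m0 = 2 ^ N * g N (2 * m0) + 2 ^ N * g N (2 * m0 + 1) := by
        rw [mul_assoc, h3, mul_add]
      rw [h4]
      exact add_le_add h1 h2

/-- the cells at distance at most `J` -/
def nb (n : ℕ) (m0 : ℤ) (J : ℕ) (p : ℤ) : Finset ℤ := (iv n m0).filter fun x => |x - p| ≤ J

theorem nb_card (n : ℕ) (m0 : ℤ) (J : ℕ) (p : ℤ) : (nb n m0 J p).card ≤ 2 * J + 1 := by
  have h1 : nb n m0 J p ⊆ Icc (p - J) (p + J) := by
    intro x hx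
    rw [nb, mem_filter, abs_le] at hx
    rw [mem_Icc]
    omega
  refine (card_le_card h1).trans ?_
  rw [Int.card_Icc]
  omega

/-- the charge of the pair sum at the cell `(i, q)` -/
def fq (N : ℕ) (g : ℕ → ℤ → ℝ) (h : ℝ) (m0 : ℤ) (J r i : ℕ) (q : ℤ) : ℝ :=
  ∑ p ∈ nb (N - (i + r)) m0 J (ix r q),
    if g (i + r) p ≤ h ∧ Up N g (2 * h) (i + r) p then g (i + r) p else 0

theorem fq_nonneg (hg0 : ∀ k p, 0 ≤ g k p) (N : ℕ) (h : ℝ) (m0 : ℤ) (J r i : ℕ) (q : ℤ) :
    0 ≤ fq N g h m0 J r i q := by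
  unfold fq
  refine sum_nonneg fun p _ => ?_
  split_ifs
  · exact hg0 _ _
  · exact le_rfl

theorem fq_le (N : ℕ) {h : ℝ} (hh : 0 ≤ h) (m0 : ℤ) (J r i : ℕ) (q : ℤ) :
    fq N g h m0 J r i q ≤ (2 * J + 1) * h := by
  unfold fq
  have h1 : ∀ p ∈ nb (N - (i + r)) m0 J (ix r q),
      (if g (i + r) p ≤ h ∧ Up N g (2 * h) (i + r) p then g (i + r) p else 0) ≤ h := by
    intro p _
    split_ifs with hp
    · exact hp.1
    · exact hh
  refine (sum_le_card_nsmul _ _ _ h1).trans ?_
  rw [nsmul_eq_mul]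
  refine mul_le_mul_of_nonneg_right ?_ hh
  have := nb_card (N - (i + r)) m0 J (ix r q)
  exact_mod_cast this

/-- inside a tall cell only the boundary is charged -/
theorem fq_zero {N : ℕ} {h : ℝ} {m0 : ℤ} {J r i k0 : ℕ} {t q : ℤ} (hT : Tp N g (2 * h) k0 t)
    (hk0 : k0 ≤ N) (hi : i + r ≤ k0)
    (h1 : 2 ^ (k0 - (i + r)) * t + J ≤ ix r q)
    (h2 : ix r q < 2 ^ (k0 - (i + r)) * t + 2 ^ (k0 - (i + r)) - J) :
    fq N g h m0 J r i q = 0 := by
  unfold fq
  refine sum_eq_zero fun p hp => ?_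
  rw [nb, mem_filter, abs_le] at hp
  refine if_neg fun hc => ?_
  have hp1 : p ∈ iv (k0 - (i + r)) t := by
    unfold iv
    rw [mem_Ico]
    constructor
    · linarith [hp.2.1]
    · linarith [hp.2.2]
  rw [mem_iv] at hp1
  have := hc.2 k0 hi hk0
  rw [hp1] at this
  linarith [hT.1]

/-- the charge of one tall cell at one scale -/
theorem tall_one {N : ℕ} {h : ℝ} (hh : 0 ≤ h) (m0 : ℤ) (J r i k0 : ℕ) (t : ℤ) (hi : i ≤ k0) :
    2 ^ i * ∑ q ∈ iv (k0 - i) t, fq N g h m0 J r i q ≤ 2 ^ k0 * ((2 * J + 1) * h) := by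
  have h1 := sum_le_card_nsmul (iv (k0 - i) t) (fun q => fq N g h m0 J r i q) ((2 * J + 1) * h)
    fun q _ => fq_le N hh m0 J r i q
  rw [card_iv, nsmul_eq_mul] at h1
  push_cast at h1
  refine (mul_le_mul_of_nonneg_left h1 (by positivity)).trans (le_of_eq ?_)
  rw [← mul_assoc, ← pow_add, Nat.add_sub_cancel' hi]

theorem bdry_card (n : ℕ) (t : ℤ) (J : ℕ) :
    ((iv n t).filter fun P => ¬ (2 ^ n * t + J ≤ P ∧ P < 2 ^ n * t + 2 ^ n - J)).card ≤ 2 * J := by
  have h1 : ((iv n t).filter fun P => ¬ (2 ^ n * t + J ≤ P ∧ P < 2 ^ n * t + 2 ^ n - J)) ⊆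
      Ico (2 ^ n * t) (2 ^ n * t + J) ∪ Ico (2 ^ n * t + 2 ^ n - J) (2 ^ n * t + 2 ^ n) := by
    intro P hP
    rw [mem_filter] at hP
    have h2 := hP.1
    unfold iv at h2
    rw [mem_Ico] at h2
    rw [mem_union, mem_Ico, mem_Ico]
    by_cases h3 : 2 ^ n * t + (J : ℤ) ≤ P
    · right
      have h4 : ¬ P < 2 ^ n * t + 2 ^ n - J := fun h => hP.2 ⟨h3, h⟩
      rw [not_lt] at h4
      exact ⟨h4, h2.2⟩
    · left
      rw [not_le] at h3
      exact ⟨h2.1, h3⟩
  refine (card_le_card h1).trans ((card_union_le _ _).trans ?_)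
  rw [Int.card_Ico, Int.card_Ico]
  omega

/-- the same, scales well below the tall cell -/
theorem tall_two (_hg0 : ∀ k p, 0 ≤ g k p) {N : ℕ} {h : ℝ} (hh : 0 ≤ h) (m0 : ℤ) (J r i k0 : ℕ)
    (t : ℤ) (hT : Tp N g (2 * h) k0 t) (hk0 : k0 ≤ N) (hi : i + r ≤ k0) :
    2 ^ i * ∑ q ∈ iv (k0 - i) t, fq N g h m0 J r i q ≤
      2 ^ (i + r) * (2 * J * ((2 * J + 1) * h)) := by
  set n := k0 - (i + r) with hn
  have e1 : k0 - i - r = n := by omega
  have h0 : r ≤ k0 - i := by omega
  rw [← cells h0 t, e1]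
  have h1 : ∀ P ∈ iv n t, ∑ q ∈ iv r P, fq N g h m0 J r i q ≤
      if ¬ (2 ^ n * t + (J : ℤ) ≤ P ∧ P < 2 ^ n * t + 2 ^ n - J) then
        2 ^ r * ((2 * J + 1) * h) else 0 := by
    intro P hP
    by_cases hc : 2 ^ n * t + (J : ℤ) ≤ P ∧ P < 2 ^ n * t + 2 ^ n - J
    · rw [if_neg (not_not.2 hc)]
      refine le_of_eq (sum_eq_zero fun q hq => ?_)
      rw [mem_iv] at hq
      refine fq_zero hT hk0 hi ?_ ?_
      · rw [← hn, hq]
        exact hc.1
      · rw [← hn, hq]
        exact hc.2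
    · rw [if_pos hc]
      have h2 := sum_le_card_nsmul (iv r P) (fun q => fq N g h m0 J r i q) ((2 * J + 1) * h)
        fun q _ => fq_le N hh m0 J r i q
      rw [card_iv, nsmul_eq_mul] at h2
      push_cast at h2
      exact h2
  have h2 := sum_le_sum h1
  rw [← sum_filter, sum_const, nsmul_eq_mul] at h2
  have h3 : (((iv n t).filter fun P => ¬ (2 ^ n * t + (J : ℤ) ≤ P ∧
      P < 2 ^ n * t + 2 ^ n - J)).card : ℝ) ≤ 2 * J := by
    exact_mod_cast bdry_card n t J
  have h4 : (0 : ℝ) ≤ 2 ^ r * ((2 * J + 1) * h) := by positivity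
  have h5 := h2.trans (mul_le_mul_of_nonneg_right h3 h4)
  refine (mul_le_mul_of_nonneg_left h5 (by positivity : (0 : ℝ) ≤ 2 ^ i)).trans (le_of_eq ?_)
  rw [pow_add]
  ring

/-- the charge of one tall cell -/
theorem tall_sum (hg0 : ∀ k p, 0 ≤ g k p) {N : ℕ} {h : ℝ} (hh : 0 ≤ h) (m0 : ℤ) (J r k0 : ℕ)
    (t : ℤ) (hT : Tp N g (2 * h) k0 t) (hk0 : k0 ≤ N) :
    ∑ i ∈ range (k0 + 1), 2 ^ i * ∑ q ∈ iv (k0 - i) t, fq N g h m0 J r i q ≤
      (2 * J + 1) * (r + 1 + 2 * J) / 2 * (2 ^ k0 * g k0 t) := by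
  have h1 : ∀ i ∈ range (k0 + 1), 2 ^ i * ∑ q ∈ iv (k0 - i) t, fq N g h m0 J r i q ≤
      (if i + r < k0 then 2 ^ (i + r) * (2 * J * ((2 * J + 1) * h)) else 0) +
      if ¬ i + r < k0 then 2 ^ k0 * ((2 * J + 1) * h) else 0 := by
    intro i hi
    rw [mem_range] at hi
    by_cases hc : i + r < k0
    · rw [if_pos hc, if_neg (not_not.2 hc), add_zero]
      exact tall_two hg0 hh m0 J r i k0 t hT hk0 hc.le
    · rw [if_neg hc, if_pos hc, zero_add]
      exact tall_one hh m0 J r i k0 t (by omega)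
  refine (sum_le_sum h1).trans ?_
  rw [sum_add_distrib, ← sum_filter, ← sum_filter, ← sum_mul, sum_const, nsmul_eq_mul]
  have e1 : (range (k0 + 1)).filter (fun i => i + r < k0) = range (k0 - r) := by
    ext i
    rw [mem_filter, mem_range, mem_range]
    omega
  have e2 : ((range (k0 + 1)).filter fun i => ¬ i + r < k0).card ≤ r + 1 := by
    have h3 : ((range (k0 + 1)).filter fun i => ¬ i + r < k0) ⊆ Icc (k0 - r) k0 := by
      intro i hi
      rw [mem_filter, mem_range] at hi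
      rw [mem_Icc]
      omega
    refine (card_le_card h3).trans ?_
    rw [Nat.card_Icc]
    omega
  have h4 : ∑ i ∈ range (k0 - r), (2 : ℝ) ^ (i + r) ≤ 2 ^ k0 := by
    have h5 : ∀ n : ℕ, ∑ i ∈ range n, (2 : ℝ) ^ (i + r) ≤ 2 ^ (n + r) := by
      intro n
      induction n with
      | zero => simp
      | succ n ih =>
        rw [sum_range_succ]
        have e3 : (2 : ℝ) ^ (n + 1 + r) = 2 ^ (n + r) + 2 ^ (n + r) := by
          rw [show n + 1 + r = (n + r) + 1 by omega, pow_succ]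
          ring
        rw [e3]
        exact add_le_add ih le_rfl
    by_cases hr : r ≤ k0
    · refine (h5 _).trans (le_of_eq ?_)
      rw [Nat.sub_add_cancel hr]
    · have e4 : k0 - r = 0 := by omega
      rw [e4, range_zero, sum_empty]
      positivity
  rw [e1]
  have h6 : (((range (k0 + 1)).filter fun i => ¬ i + r < k0).card : ℝ) ≤ r + 1 := by
    exact_mod_cast e2
  have h7 := mul_le_mul_of_nonneg_right h4
    (by positivity : (0 : ℝ) ≤ 2 * J * ((2 * J + 1) * h))
  have h8 := mul_le_mul_of_nonneg_right h6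
    (by positivity : (0 : ℝ) ≤ 2 ^ k0 * ((2 * J + 1) * h))
  refine (add_le_add h7 h8).trans ?_
  have h9 : 2 * h ≤ g k0 t := hT.1.le
  have h10 : (0 : ℝ) ≤ 2 ^ k0 * ((2 * J + 1) * (r + 1 + 2 * J)) := by positivity
  have h11 := mul_le_mul_of_nonneg_left h9 h10
  have e5 : (2 : ℝ) ^ k0 * (2 * J * ((2 * J + 1) * h)) + (r + 1) * (2 ^ k0 * ((2 * J + 1) * h)) =
      2 ^ k0 * ((2 * J + 1) * (r + 1 + 2 * J)) * (2 * h) / 2 := by ring
  rw [e5]
  have e6 : (2 * (J : ℝ) + 1) * (r + 1 + 2 * J) / 2 * (2 ^ k0 * g k0 t) =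
      2 ^ k0 * ((2 * J + 1) * (r + 1 + 2 * J)) * g k0 t / 2 := by ring
  rw [e6]
  linarith

/-- **The pair sum below the tall cells.** -/
theorem deep_pairs (hg0 : ∀ k p, 0 ≤ g k p) {N : ℕ}
    (hg : ∀ k p, k < N → 2 * g (k + 1) p = g k (2 * p) + g k (2 * p + 1)) {h : ℝ} (hh : 0 ≤ h)
    (m0 : ℤ) (J r : ℕ) :
    ∑ i ∈ range (N + 1 - r), 2 ^ i * ∑ q ∈ iv (N - i) m0,
      (if ¬ Up N g (2 * h) i q then
        ∑ p ∈ nb (N - (i + r)) m0 J (ix r q),
          (if g (i + r) p ≤ h ∧ Up N g (2 * h) (i + r) p then g (i + r) p else 0) else 0) ≤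
      (2 * J + 1) * (r + 1 + 2 * J) / 2 * (2 ^ N * g N m0) := by
  have hf := fq_nonneg (g := g) hg0 N h m0 J r
  -- every bad cell is below a tall cell
  have h1 : ∀ i ∈ range (N + 1 - r), 2 ^ i * ∑ q ∈ iv (N - i) m0,
      (if ¬ Up N g (2 * h) i q then fq N g h m0 J r i q else 0) ≤
      ∑ k0 ∈ range (N + 1), ∑ t ∈ iv (N - k0) m0, if Tp N g (2 * h) k0 t then
        (if i ≤ k0 then 2 ^ i * ∑ q ∈ iv (k0 - i) t, fq N g h m0 J r i q else 0) else 0 := by
    intro i hi
    rw [mem_range] at hi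
    have h2 : ∀ q ∈ iv (N - i) m0, (if ¬ Up N g (2 * h) i q then fq N g h m0 J r i q else 0) ≤
        ∑ k0 ∈ range (N + 1), if i ≤ k0 ∧ Tp N g (2 * h) k0 (ix (k0 - i) q) then
          fq N g h m0 J r i q else 0 := by
      intro q _
      have h3 : ∀ k0 ∈ range (N + 1), 0 ≤ (if i ≤ k0 ∧ Tp N g (2 * h) k0 (ix (k0 - i) q) then
          fq N g h m0 J r i q else 0) := by
        intro k0 _
        split_ifs
        · exact hf i q
        · exact le_rfl
      by_cases hu : Up N g (2 * h) i q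
      · rw [if_neg (not_not.2 hu)]
        exact sum_nonneg h3
      · rw [if_pos hu]
        obtain ⟨j, hj1, hj2, hj3⟩ := not_up hu
        have h4 := single_le_sum h3 (mem_range.2 (by omega : j < N + 1))
        rw [if_pos ⟨hj1, hj3⟩] at h4
        exact h4
    refine (mul_le_mul_of_nonneg_left (sum_le_sum h2) (by positivity)).trans (le_of_eq ?_)
    rw [sum_comm, mul_sum]
    refine sum_congr rfl fun k0 hk0 => ?_
    rw [mem_range] at hk0
    by_cases hik : i ≤ k0
    · have e1 : N - k0 = N - i - (k0 - i) := by omega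
      rw [e1, ← cells (show k0 - i ≤ N - i by omega) m0, mul_sum]
      refine sum_congr rfl fun t _ => ?_
      have e2 : ∀ q ∈ iv (k0 - i) t, (if i ≤ k0 ∧ Tp N g (2 * h) k0 (ix (k0 - i) q) then
          fq N g h m0 J r i q else 0) = if Tp N g (2 * h) k0 t then fq N g h m0 J r i q else 0 := by
        intro q hq
        rw [mem_iv] at hq
        rw [hq]
        simp only [hik, true_and]
      rw [sum_congr rfl e2]
      by_cases hT : Tp N g (2 * h) k0 t
      · simp only [if_pos hT, if_pos hik]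
      · simp only [if_neg hT, sum_const_zero, mul_zero]
    · have e2 : ∀ q ∈ iv (N - i) m0, (if i ≤ k0 ∧ Tp N g (2 * h) k0 (ix (k0 - i) q) then
          fq N g h m0 J r i q else 0) = 0 := fun q _ => if_neg fun hc => hik hc.1
      rw [sum_congr rfl e2, sum_const_zero, mul_zero]
      symm
      refine sum_eq_zero fun t _ => ?_
      rw [if_neg hik]
      split_ifs <;> rfl
  have h5 := sum_le_sum h1
  refine h5.trans ?_
  rw [sum_comm]
  have h6 : ∀ k0 ∈ range (N + 1), ∑ i ∈ range (N + 1 - r), ∑ t ∈ iv (N - k0) m0,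
      (if Tp N g (2 * h) k0 t then
        (if i ≤ k0 then 2 ^ i * ∑ q ∈ iv (k0 - i) t, fq N g h m0 J r i q else 0) else 0) ≤
      ∑ t ∈ iv (N - k0) m0, (2 * J + 1) * (r + 1 + 2 * J) / 2 *
        (if Tp N g (2 * h) k0 t then 2 ^ k0 * g k0 t else 0) := by
    intro k0 hk0
    rw [mem_range] at hk0
    rw [sum_comm]
    refine sum_le_sum fun t _ => ?_
    by_cases hT : Tp N g (2 * h) k0 t
    · simp only [if_pos hT]
      refine le_trans ?_ (tall_sum hg0 hh m0 J r k0 t hT (by omega))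
      rw [← sum_filter]
      refine sum_le_sum_of_subset_of_nonneg ?_ fun i _ _ => ?_
      · intro i hi
        rw [mem_filter] at hi
        rw [mem_range]
        omega
      · exact mul_nonneg (by positivity) (sum_nonneg fun q _ => hf i q)
    · simp only [if_neg hT, sum_const_zero, mul_zero, le_refl]
  refine (sum_le_sum h6).trans ?_
  have h7 := tall_mass hg0 (H := 2 * h) N hg m0
  have h8 : (0 : ℝ) ≤ (2 * J + 1) * (r + 1 + 2 * J) / 2 := by positivity
  have h9 := mul_le_mul_of_nonneg_left h7 h8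
  unfold TS at h9
  simp only [mul_sum] at h9
  exact h9

end

end Vale.Agent.P141.H718
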