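import Vale.Agent.P141.H718.PairR

/-!
# P141, line (A): the pair sum over the stopped tree, alive cells first

`pair_sum` : near cells in all roots; `pair_sum_in` : near cells in the same root.
-/

namespace Vale.Agent.P141.H718

open Finset
open Vale.Agent.P141.PL (iv mem_iv card_iv ix ix_ix ix_zero)

noncomputable section

open scoped Classical

variable {g R : ℕ → ℤ → ℝ} {al : ℕ → ℤ → Prop} {N : ℕ} {h c : ℝ}

/-- the near pairs of two roots, exchanged -/
theorem near_swap (n J : ℕ) (M : ℤ) (F : ℤ → ℤ → ℝ) (hF : ∀ p q, 0 ≤ F p q) :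
    ∑ p ∈ iv n M, ∑ q ∈ Icc (p - J) (p + J), F p q ≤
      ∑ M' ∈ Icc (M - J) (M + J), ∑ q ∈ iv n M', ∑ p ∈ Icc (q - J) (q + J), F p q := by
  have hn : (0 : ℤ) < 2 ^ n := by positivity
  have h1 : ∀ p ∈ iv n M, ∑ q ∈ Icc (p - J) (p + J), F p q ≤
      ∑ M' ∈ Icc (M - J) (M + J), ∑ q ∈ iv n M', if q ∈ Icc (p - J) (p + J) then F p q else 0 := by
    intro p hp
    have hmap : ∀ q ∈ Icc (p - J) (p + J), ix n q ∈ Icc (M - J) (M + J) := by
      intro q hq
      rw [mem_Icc] at hq ⊢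
      rw [mem_iv] at hp
      unfold ix at hp ⊢
      have h2 : (1 : ℤ) ≤ 2 ^ n := hn
      have hJ : (0 : ℤ) ≤ J := Int.natCast_nonneg J
      have h3 := Int.mul_ediv_add_emod p (2 ^ n)
      have h4 := Int.emod_nonneg p hn.ne'
      have h5 := Int.emod_lt_of_pos p hn
      constructor
      · apply Int.le_ediv_of_mul_le hn
        rw [← hp]
        nlinarith [hq.1]
      · apply Int.lt_add_one_iff.mp
        apply Int.ediv_lt_of_lt_mul hn
        rw [← hp]
        nlinarith [hq.2]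
    rw [← sum_fiberwise_of_maps_to hmap]
    refine sum_le_sum fun M' _ => le_of_eq ?_
    rw [← sum_filter]
    refine sum_congr ?_ fun _ _ => rfl
    ext q
    rw [mem_filter, mem_filter, mem_iv]
    exact and_comm
  refine (sum_le_sum h1).trans ?_
  rw [sum_comm]
  refine sum_le_sum fun M' _ => ?_
  rw [sum_comm]
  refine sum_le_sum fun q _ => ?_
  rw [← sum_filter]
  refine sum_le_sum_of_subset_of_nonneg ?_ fun p _ _ => hF p q
  intro p hp
  rw [mem_filter, mem_Icc] at hp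
  rw [mem_Icc]
  omega

/-- **The pair sum, all near cells.** -/
theorem pair_sum (hg0 : ∀ k p, 0 ≤ g k p)
    (hg : ∀ k p, k < N → 2 * g (k + 1) p = g k (2 * p) + g k (2 * p + 1)) (hh : 0 ≤ h)
    (hc0 : 0 ≤ c) (hc : 2 * c < 1) (hR0 : ∀ k q, 0 ≤ R k q)
    (hR1 : ∀ k q, k ≤ N → Bd N g h k q → R k q ≤ 1) (hRz : ∀ q, ¬ Bd N g h 0 q → R 0 q ≤ 0)
    (hRs : ∀ k q, k < N → ¬ Bd N g h (k + 1) q →
      R (k + 1) q ≤ c * (R k (2 * q) + R k (2 * q + 1)))
    (hal : ∀ k p, al k p → k ≤ N → ∀ i, i ≤ N - k → g (k + i) (p / 2 ^ i) ≤ h) (J : ℕ) (M : ℤ) :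
    ∑ k ∈ range (N + 1), 2 ^ k * ∑ p ∈ iv (N - k) M, ∑ q ∈ Icc (p - J) (p + J),
      (if al k p then R k q * g k p else 0) ≤
      CR J c * (2 ^ N * ∑ M' ∈ Icc (M - J) (M + J), g N M') := by
  have hF : ∀ k p q, 0 ≤ (if al k p then R k q * g k p else 0) := by
    intro k p q
    split_ifs
    · exact mul_nonneg (hR0 _ _) (hg0 _ _)
    · exact le_rfl
  have h1 : ∀ k ∈ range (N + 1), 2 ^ k * ∑ p ∈ iv (N - k) M, ∑ q ∈ Icc (p - J) (p + J),
      (if al k p then R k q * g k p else 0) ≤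
      ∑ M' ∈ Icc (M - J) (M + J), 2 ^ k * ∑ q ∈ iv (N - k) M',
        R k q * ∑ p ∈ Icc (q - J) (q + J), (if al k p then g k p else 0) := by
    intro k _
    have h2 := near_swap (N - k) J M (fun p q => if al k p then R k q * g k p else 0) (hF k)
    refine (mul_le_mul_of_nonneg_left h2 (by positivity)).trans (le_of_eq ?_)
    rw [mul_sum]
    refine sum_congr rfl fun M' _ => ?_
    congr 1
    refine sum_congr rfl fun q _ => ?_
    rw [mul_sum]
    refine sum_congr rfl fun p _ => ?_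
    split_ifs <;> simp
  refine (sum_le_sum h1).trans ?_
  rw [sum_comm, mul_sum, mul_sum]
  exact sum_le_sum fun M' _ => pair_root hg0 hg hh hc0 hc hR0 hR1 hRz hRs hal J M'

/-- **The pair sum, near cells in the same root.** -/
theorem pair_sum_in (hg0 : ∀ k p, 0 ≤ g k p)
    (hg : ∀ k p, k < N → 2 * g (k + 1) p = g k (2 * p) + g k (2 * p + 1)) (hh : 0 ≤ h)
    (hc0 : 0 ≤ c) (hc : 2 * c < 1) (hR0 : ∀ k q, 0 ≤ R k q)
    (hR1 : ∀ k q, k ≤ N → Bd N g h k q → R k q ≤ 1) (hRz : ∀ q, ¬ Bd N g h 0 q → R 0 q ≤ 0)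
    (hRs : ∀ k q, k < N → ¬ Bd N g h (k + 1) q →
      R (k + 1) q ≤ c * (R k (2 * q) + R k (2 * q + 1)))
    (hal : ∀ k p, al k p → k ≤ N → ∀ i, i ≤ N - k → g (k + i) (p / 2 ^ i) ≤ h) (J : ℕ) (M : ℤ) :
    ∑ k ∈ range (N + 1), 2 ^ k * ∑ p ∈ iv (N - k) M, ∑ q ∈ nb (N - k) M J p,
      (if al k p then R k q * g k p else 0) ≤ CR J c * (2 ^ N * g N M) := by
  refine le_trans (sum_le_sum fun k _ => ?_) (pair_root hg0 hg hh hc0 hc hR0 hR1 hRz hRs hal J M)
  refine mul_le_mul_of_nonneg_left ?_ (by positivity)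
  have h1 : ∀ p ∈ iv (N - k) M, ∑ q ∈ nb (N - k) M J p, (if al k p then R k q * g k p else 0) =
      ∑ q ∈ iv (N - k) M, if |q - p| ≤ J then (if al k p then R k q * g k p else 0) else 0 := by
    intro p _
    rw [nb, sum_filter]
  rw [sum_congr rfl h1, sum_comm]
  refine sum_le_sum fun q _ => ?_
  rw [← sum_filter, mul_sum]
  have h2 : ∀ p ∈ Icc (q - J) (q + J), 0 ≤ R k q * (if al k p then g k p else 0) := by
    intro p _
    refine mul_nonneg (hR0 _ _) ?_
    split_ifs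
    · exact hg0 _ _
    · exact le_rfl
  have h3 : ∀ p ∈ (iv (N - k) M).filter (fun p => |q - p| ≤ J),
      (if al k p then R k q * g k p else 0) = R k q * (if al k p then g k p else 0) := by
    intro p _
    split_ifs <;> simp
  rw [sum_congr rfl h3]
  refine sum_le_sum_of_subset_of_nonneg ?_ fun p hp _ => h2 p hp
  intro p hp
  rw [mem_filter, abs_le] at hp
  rw [mem_Icc]
  omega

end

end Vale.Agent.P141.H718
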